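import Crest.Agent.X212.Std94.Pt
import Crest.Agent.X212.Pj41.Iso
import Crest.Agent.X212.Met55.Mix
import Crest.Agent.X212.Line51.Rl
import Crest.Agent.X212.Line51.Defs

-- ▼ part X212/Lab56/Pt
section

/-!
# X212 / Lab56, part Pt (helper56): complex spinor modules at a point

`PC P p ρ` : an irreducible complex Clifford module (rank four) for the range of `P`; `It` : intertwiners;
`hP ρ ρ'` : the projector onto the line of intertwiners (a polynomial in `ρ`, `ρ'`); `Un` : unitary intertwiners.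
-/

set_option autoImplicit false
set_option linter.unusedSectionVars false
set_option linter.unusedSimpArgs false

open Matrix Finset
open scoped Kronecker ComplexOrder
open Crest.Agent.X212.Pj41
open Crest.Agent.X212.Wz78 (Pr Cl)
open Crest.Agent.X212.Std94 (ON fr exists_ON)

noncomputable section

namespace Crest.Agent.X212.Lab56

/-- `K (K² - 4) (K + 4) / 384` -/
def qR {A : Type*} [Ring A] [Algebra ℝ A] (K : A) : A :=
  (1 / 384 : ℝ) • (K * (K * (K * K)) + (4 : ℝ) • (K * (K * K)) - (4 : ℝ) • (K * K) - (16 : ℝ) • K)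

theorem qR_sum {A : Type*} [Ring A] [Algebra ℝ A] (c : Fin 4 → A) (e : A) (cc : ∀ i, c i * c i = e)
    (cm : ∀ i k, c i * c k = c k * c i) (ec : ∀ i, e * c i = c i) (ee : e * e = e) :
    qR (∑ i, c i) = (1 / 16 : ℝ) • ((e + c 0) * ((e + c 1) * ((e + c 2) * (e + c 3)))) := by
  have ce : ∀ i, c i * e = c i := fun i => by rw [← cc i, ← mul_assoc, cc, ec]
  have cc' : ∀ i y, c i * (c i * y) = e * y := fun i y => by rw [← mul_assoc, cc]
  have cm' : ∀ i k y, c i * (c k * y) = c k * (c i * y) := fun i k y => by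
    rw [← mul_assoc, cm, mul_assoc]
  have ec' : ∀ i y, e * (c i * y) = c i * y := fun i y => by rw [← mul_assoc, ec]
  have ce' : ∀ i y, c i * (e * y) = c i * y := fun i y => by rw [← mul_assoc, ce]
  have k2 : (∑ i, c i) * ∑ i, c i = (4 : ℝ) • e + (2 : ℝ) • (c 0 * c 1 + c 0 * c 2 + c 0 * c 3 +
      c 1 * c 2 + c 1 * c 3 + c 2 * c 3) := by
    simp only [Fin.sum_univ_four, mul_add, add_mul, cc, cm 1 0, cm 2 0, cm 3 0, cm 2 1, cm 3 1, cm 3 2]
    module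
  have k3 : (∑ i, c i) * ((∑ i, c i) * ∑ i, c i) = (10 : ℝ) • (c 0 + c 1 + c 2 + c 3) + (6 : ℝ) •
      (c 0 * (c 1 * c 2) + c 0 * (c 1 * c 3) + c 0 * (c 2 * c 3) + c 1 * (c 2 * c 3)) := by
    rw [k2]
    simp only [Fin.sum_univ_four, mul_add, add_mul, mul_smul_comm, cc, cc', ec, ce, ec', ce', cm 1 0,
      cm 2 0, cm 3 0, cm 2 1, cm 3 1, cm 3 2, cm' 1 0, cm' 2 0, cm' 3 0, cm' 2 1, cm' 3 1, cm' 3 2]
    module
  have k4 : (∑ i, c i) * ((∑ i, c i) * ((∑ i, c i) * ∑ i, c i)) = (40 : ℝ) • e +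
      (32 : ℝ) • (c 0 * c 1 + c 0 * c 2 + c 0 * c 3 + c 1 * c 2 + c 1 * c 3 + c 2 * c 3) +
      (24 : ℝ) • (c 0 * (c 1 * (c 2 * c 3))) := by
    rw [k3]
    simp only [Fin.sum_univ_four, mul_add, add_mul, mul_smul_comm, cc, cc', ec, ce, ec', ce', cm 1 0,
      cm 2 0, cm 3 0, cm 2 1, cm 3 1, cm 3 2, cm' 1 0, cm' 2 0, cm' 3 0, cm' 2 1, cm' 3 1, cm' 3 2]
    module
  rw [qR, k4, k3, k2]
  simp only [Fin.sum_univ_four, mul_add, add_mul, ec, ce, ec', ce', ee]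
  module

theorem exp16 {A : Type*} [Ring A] (c : Fin 4 → A) (e : A) (ec : ∀ i, e * c i = c i)
    (ce : ∀ i, c i * e = c i) (ee : e * e = e) :
    (e + c 0) * ((e + c 1) * ((e + c 2) * (e + c 3))) = e + (c 0 + c 1 + c 2 + c 3) +
      (c 0 * c 1 + c 0 * c 2 + c 0 * c 3 + c 1 * c 2 + c 1 * c 3 + c 2 * c 3) +
      (c 0 * (c 1 * c 2) + c 0 * (c 1 * c 3) + c 0 * (c 2 * c 3) + c 1 * (c 2 * c 3)) +
      c 0 * (c 1 * (c 2 * c 3)) := by
  have ec' : ∀ i y, e * (c i * y) = c i * y := fun i y => by rw [← mul_assoc, ec]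
  simp only [mul_add, add_mul, ec, ce, ec', ee]
  abel

variable {ι ι' κ l m : Type*} [Fintype ι] [Fintype ι'] [Fintype κ] [Fintype l] [Fintype m]
  [DecidableEq κ] [DecidableEq l] [DecidableEq m]

/-- a projector of rank four -/
structure P4 (P : ι → ι → ℝ) : Prop where
  pr : Pr P
  rk : ∑ a, P a a = 4

/-- a complex spinor module at a point -/
structure PC (P : ι → ι → ℝ) (p : Matrix κ κ ℂ) (ρ : ι → Matrix κ κ ℂ) : Prop where
  prj : Prj p
  tr : p.trace = 4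
  cl : Cl P p ρ
  sk : ∀ a, (ρ a)ᴴ = -ρ a

/-- intertwiners -/
structure It (p : Matrix κ κ ℂ) (ρ : ι → Matrix κ κ ℂ) (p' : Matrix l l ℂ) (ρ' : ι → Matrix l l ℂ)
    (A : Matrix l κ ℂ) : Prop where
  pl : p' * A = A
  pr : A * p = A
  ρ : ∀ a, A * ρ a = ρ' a * A

/-- unitary intertwiners -/
structure Un (p : Matrix κ κ ℂ) (ρ : ι → Matrix κ κ ℂ) (p' : Matrix l l ℂ) (ρ' : ι → Matrix l l ℂ)
    (A : Matrix l κ ℂ) : Prop where
  iso : PIso A p p'
  ρ : ∀ a, A * ρ a = ρ' a * A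

/-- a matrix as a column -/
def vec (A : Matrix l κ ℂ) : Matrix (l × κ) Unit ℂ := of fun i _ => A i.1 i.2

/-- a column as a matrix -/
def mat (s : Matrix (l × κ) Unit ℂ) : Matrix l κ ℂ := of fun i k => s (i, k) ()

@[simp] theorem mat_vec (A : Matrix l κ ℂ) : mat (vec A) = A := rfl
@[simp] theorem vec_mat (s : Matrix (l × κ) Unit ℂ) : vec (mat s) = s := rfl

theorem vec_inj {A B : Matrix l κ ℂ} (h : vec A = vec B) : A = B := congrArg mat h

theorem vec_smul (c : ℂ) (A : Matrix l κ ℂ) : vec (c • A) = c • vec A := rfl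
theorem vec_neg (A : Matrix l κ ℂ) : vec (-A) = -vec A := rfl

theorem kron_vec {l' κ' : Type*} (X : Matrix l' l ℂ) (Y : Matrix κ κ' ℂ) (A : Matrix l κ ℂ) :
    (X ⊗ₖ Yᵀ) * vec A = of fun (i : l' × κ') _ => (X * A * Y) i.1 i.2 := by
  ext i u
  simp only [vec, mul_apply, Fintype.sum_prod_type, kroneckerMap_apply, transpose_apply, of_apply,
    sum_mul]
  rw [sum_comm]
  exact sum_congr rfl fun _ _ => sum_congr rfl fun _ _ => by ring

theorem vec_ct_mul (A B : Matrix l κ ℂ) : (vec A)ᴴ * vec B = of fun _ _ => (Aᴴ * B).trace := by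
  ext i u
  simp only [vec, mul_apply, Fintype.sum_prod_type, conjTranspose_apply, of_apply, trace, Matrix.diag]
  exact sum_comm

/-- `A ↦ -∑ ρ' a A ρ a` -/
def hK (ρ : ι → Matrix κ κ ℂ) (ρ' : ι → Matrix l l ℂ) : Matrix (l × κ) (l × κ) ℂ :=
  -∑ a, ρ' a ⊗ₖ (ρ a)ᵀ

/-- the projector onto the intertwiners -/
def hP (ρ : ι → Matrix κ κ ℂ) (ρ' : ι → Matrix l l ℂ) : Matrix (l × κ) (l × κ) ℂ := qR (hK ρ ρ')

variable {P : ι → ι → ℝ} {p : Matrix κ κ ℂ} {ρ : ι → Matrix κ κ ℂ} {p' : Matrix l l ℂ}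
  {ρ' : ι → Matrix l l ℂ} {p'' : Matrix m m ℂ} {ρ'' : ι → Matrix m m ℂ} {U : Fin 4 → ι → ℝ}
  {A B : Matrix l κ ℂ}

theorem Un.it (h : Un p ρ p' ρ' A) : It p ρ p' ρ' A := ⟨h.iso.left, h.iso.idem, h.ρ⟩

theorem It.smul (h : It p ρ p' ρ' A) (c : ℂ) : It p ρ p' ρ' (c • A) :=
  ⟨by rw [Matrix.mul_smul, h.pl], by rw [Matrix.smul_mul, h.pr], fun a => by
    rw [Matrix.mul_smul, Matrix.smul_mul, h.ρ]⟩

theorem It.mul {C : Matrix m l ℂ} (h : It p ρ p' ρ' A) (h' : It p' ρ' p'' ρ'' C) :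
    It p ρ p'' ρ'' (C * A) :=
  ⟨by rw [← Matrix.mul_assoc, h'.pl], by rw [Matrix.mul_assoc, h.pr], fun a => by
    rw [Matrix.mul_assoc, h.ρ, ← Matrix.mul_assoc, h'.ρ, Matrix.mul_assoc]⟩

theorem ct_rho {P' : ι → ι → ℝ} (h : PC P p ρ) (h' : PC P' p' ρ') {a : ι} (e : A * ρ a = ρ' a * A) :
    Aᴴ * ρ' a = ρ a * Aᴴ := by
  have := congrArg conjTranspose e
  rw [conjTranspose_mul, conjTranspose_mul, h.sk, h'.sk, Matrix.neg_mul, Matrix.mul_neg] at this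
  exact (neg_injective this).symm

theorem It.ct (h : PC P p ρ) (h' : PC P p' ρ') (i : It p ρ p' ρ' A) : It p' ρ' p ρ Aᴴ :=
  ⟨by rw [← h.prj.herm, ← conjTranspose_mul, i.pr], by rw [← h'.prj.herm, ← conjTranspose_mul, i.pl],
    fun a => ct_rho h h' (i.ρ a)⟩

theorem PC.refl (h : PC P p ρ) : Un p ρ p ρ p := ⟨h.prj.refl, fun a => by rw [h.cl.pl, h.cl.pr]⟩

theorem Un.symm (h : PC P p ρ) (h' : PC P p' ρ') (i : Un p ρ p' ρ' A) : Un p' ρ' p ρ Aᴴ :=
  ⟨i.iso.symm, fun a => ct_rho h h' (i.ρ a)⟩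

theorem Un.trans {C : Matrix m l ℂ} (h : Un p ρ p' ρ' A) (h' : Un p' ρ' p'' ρ'' C) :
    Un p ρ p'' ρ'' (C * A) := ⟨h.iso.trans h'.iso, (h.it.mul h'.it).ρ⟩

section frame

variable (h : PC P p ρ) (hU : ON P U)
include h hU

theorem PC.rr (i : Fin 4) : fr U ρ i * fr U ρ i = -p := by
  have e := hU.rel h.cl i i
  rw [if_pos rfl, ← two_smul ℝ, mul_one, neg_smul, ← smul_neg] at e
  exact smul_right_injective _ two_ne_zero e

theorem PC.ra {i k : Fin 4} (n : i ≠ k) : fr U ρ i * fr U ρ k = -(fr U ρ k * fr U ρ i) := by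
  have e := hU.rel h.cl i k
  rw [if_neg n, mul_zero, zero_smul] at e
  exact eq_neg_of_add_eq_zero_left e

omit hU in
theorem PC.pf (i : Fin 4) : p * fr U ρ i = fr U ρ i := by simp [fr, Matrix.mul_sum, h.cl.pl]

omit hU in
theorem PC.fp (i : Fin 4) : fr U ρ i * p = fr U ρ i := by simp [fr, Matrix.sum_mul, h.cl.pr]

omit hU in
theorem PC.fs (i : Fin 4) : (fr U ρ i)ᴴ = -fr U ρ i := by
  simp [fr, conjTranspose_sum, h.sk]

theorem PC.tr0 (a : Fin 4) {X : Matrix κ κ ℂ} (e : fr U ρ a * X = -(X * fr U ρ a)) (hX : p * X = X) :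
    X.trace = 0 := by
  have e1 : (fr U ρ a * (fr U ρ a * X)).trace = -X.trace := by
    rw [← Matrix.mul_assoc, h.rr hU, Matrix.neg_mul, hX, trace_neg]
  have e2 : (fr U ρ a * (X * fr U ρ a)).trace = -X.trace := by
    rw [← Matrix.mul_assoc, trace_mul_cycle, h.rr hU, Matrix.neg_mul, hX, trace_neg]
  rw [e, Matrix.mul_neg, trace_neg, e2, neg_neg] at e1
  linear_combination e1 / 2

theorem hK_frame (ρ' : ι → Matrix l l ℂ) : hK ρ ρ' = ∑ i, -(fr U ρ' i ⊗ₖ (fr U ρ i)ᵀ) := by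
  have e : ∀ a, (ρ a)ᵀ = ∑ i, U i a • (fr U ρ i)ᵀ := fun a => by
    conv_lhs => rw [hU.rho_eq h.cl a]
    simp [transpose_sum]
  rw [hK, sum_neg_distrib]
  congr 1
  ext i k
  simp only [e, Matrix.sum_apply, kroneckerMap_apply, Matrix.smul_apply, mul_sum]
  rw [sum_comm]
  refine sum_congr rfl fun j _ => ?_
  simp only [fr, Matrix.sum_apply, Matrix.smul_apply, sum_mul (f := fun a => U j a • ρ' a i.1 k.1)]
  exact sum_congr rfl fun a _ => by simp only [Complex.real_smul]; ring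

end frame

/-- the four commuting involutions -/
def ci (U : Fin 4 → ι → ℝ) (ρ : ι → Matrix κ κ ℂ) (ρ' : ι → Matrix l l ℂ) (i : Fin 4) :
    Matrix (l × κ) (l × κ) ℂ := -(fr U ρ' i ⊗ₖ (fr U ρ i)ᵀ)

theorem neg_kron (X : Matrix l l ℂ) (Y : Matrix κ κ ℂ) : (-X) ⊗ₖ Y = -(X ⊗ₖ Y) := by
  ext; simp

theorem kron_neg (X : Matrix l l ℂ) (Y : Matrix κ κ ℂ) : X ⊗ₖ (-Y) = -(X ⊗ₖ Y) := by
  ext; simp

section two

variable (h : PC P p ρ) (h' : PC P p' ρ') (hU : ON P U)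
include h h' hU

theorem ci_sq (i : Fin 4) : ci U ρ ρ' i * ci U ρ ρ' i = p' ⊗ₖ pᵀ := by
  rw [ci, neg_mul_neg, ← mul_kronecker_mul, ← transpose_mul, h.rr hU, h'.rr hU, transpose_neg,
    neg_kron, kron_neg, neg_neg]

theorem ci_comm (i k : Fin 4) : ci U ρ ρ' i * ci U ρ ρ' k = ci U ρ ρ' k * ci U ρ ρ' i := by
  rcases eq_or_ne i k with rfl | n
  · rfl
  · simp only [ci, neg_mul_neg, ← mul_kronecker_mul, ← transpose_mul]
    rw [h'.ra hU n, h.ra hU n.symm, transpose_neg, neg_kron, kron_neg, neg_neg]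

omit hU in
theorem e_ci (i : Fin 4) : p' ⊗ₖ pᵀ * ci U ρ ρ' i = ci U ρ ρ' i := by
  rw [ci, Matrix.mul_neg, ← mul_kronecker_mul, ← transpose_mul, h.fp, h'.pf]

omit hU in
theorem ci_e (i : Fin 4) : ci U ρ ρ' i * p' ⊗ₖ pᵀ = ci U ρ ρ' i := by
  rw [ci, Matrix.neg_mul, ← mul_kronecker_mul, ← transpose_mul, h.pf, h'.fp]

omit hU in
theorem ci_ct (i : Fin 4) : (ci U ρ ρ' i)ᴴ = ci U ρ ρ' i := by
  rw [ci, conjTranspose_neg, conjTranspose_kronecker, ct_tr, h.fs, h'.fs, transpose_neg, neg_kron,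
    kron_neg, neg_neg]

theorem hP_eq : hP ρ ρ' = (1 / 16 : ℝ) • ((p' ⊗ₖ pᵀ + ci U ρ ρ' 0) * ((p' ⊗ₖ pᵀ + ci U ρ ρ' 1) *
    ((p' ⊗ₖ pᵀ + ci U ρ ρ' 2) * (p' ⊗ₖ pᵀ + ci U ρ ρ' 3)))) := by
  rw [hP, hK_frame h hU]
  exact qR_sum _ _ (ci_sq h h' hU) (ci_comm h h' hU) (e_ci h h') (h'.prj.kron h.prj.transpose).idem

theorem ci_hP (i : Fin 4) : ci U ρ ρ' i * hP ρ ρ' = hP ρ ρ' := by
  have c : ∀ k (Y : Matrix (l × κ) (l × κ) ℂ), ci U ρ ρ' i * ((p' ⊗ₖ pᵀ + ci U ρ ρ' k) * Y) =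
      (p' ⊗ₖ pᵀ + ci U ρ ρ' k) * (ci U ρ ρ' i * Y) := fun k Y => by
    rw [← Matrix.mul_assoc, ← Matrix.mul_assoc, Matrix.mul_add, Matrix.add_mul (N := ci U ρ ρ' i),
      ci_e h h', e_ci h h', ci_comm h h' hU]
  have d : ci U ρ ρ' i * (p' ⊗ₖ pᵀ + ci U ρ ρ' i) = p' ⊗ₖ pᵀ + ci U ρ ρ' i := by
    rw [Matrix.mul_add, ci_e h h', ci_sq h h' hU, add_comm]
  have d' : ∀ Y : Matrix (l × κ) (l × κ) ℂ, ci U ρ ρ' i * ((p' ⊗ₖ pᵀ + ci U ρ ρ' i) * Y) =
      (p' ⊗ₖ pᵀ + ci U ρ ρ' i) * Y := fun Y => by rw [← Matrix.mul_assoc, d]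
  rw [hP_eq h h' hU, Matrix.mul_smul]
  congr 1
  fin_cases i
  · exact d' _
  · rw [c]; exact congrArg _ (d' _)
  · rw [c, c]; exact congrArg _ (congrArg _ (d' _))
  · rw [c, c, c]; exact congrArg _ (congrArg _ (congrArg _ d))

theorem hP_mul {n : Type*} {Y : Matrix (l × κ) n ℂ} (e : ∀ i, ci U ρ ρ' i * Y = Y) : hP ρ ρ' * Y = Y := by
  have e0 : p' ⊗ₖ pᵀ * Y = Y := by rw [← e 0, ← Matrix.mul_assoc, e_ci h h']
  have d : ∀ i, (p' ⊗ₖ pᵀ + ci U ρ ρ' i) * Y = (2 : ℝ) • Y := fun i => by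
    rw [Matrix.add_mul, e0, e, two_smul]
  rw [hP_eq h h' hU, Matrix.smul_mul]
  simp only [Matrix.mul_assoc, d, Matrix.mul_smul, smul_smul]
  norm_num

theorem ci_vec (i : Fin 4) : ci U ρ ρ' i * vec A = vec (-(fr U ρ' i * A * fr U ρ i)) := by
  rw [ci, Matrix.neg_mul, kron_vec]; rfl

theorem trace_hP' : (hP ρ ρ').trace = 1 := by
  have s10 := h'.ra hU (i := 1) (k := 0) (by decide)
  have s20 := h'.ra hU (i := 2) (k := 0) (by decide)
  have s30 := h'.ra hU (i := 3) (k := 0) (by decide)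
  have s21 := h'.ra hU (i := 2) (k := 1) (by decide)
  have s31 := h'.ra hU (i := 3) (k := 1) (by decide)
  have s32 := h'.ra hU (i := 3) (k := 2) (by decide)
  have w : ∀ {i k : Fin 4}, fr U ρ' i * fr U ρ' k = -(fr U ρ' k * fr U ρ' i) → ∀ Y : Matrix l l ℂ,
      fr U ρ' i * (fr U ρ' k * Y) = -(fr U ρ' k * (fr U ρ' i * Y)) := fun e Y => by
    rw [← Matrix.mul_assoc, e, Matrix.neg_mul, Matrix.mul_assoc]
  have rr' : ∀ i (Y : Matrix l l ℂ), fr U ρ' i * (fr U ρ' i * Y) = -(p' * Y) := fun i Y => by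
    rw [← Matrix.mul_assoc, h'.rr hU, Matrix.neg_mul]
  have pf' : ∀ i (Y : Matrix l l ℂ), p' * (fr U ρ' i * Y) = fr U ρ' i * Y := fun i Y => by
    rw [← Matrix.mul_assoc, h'.pf]
  have t1 : ∀ i, (fr U ρ' i).trace = 0 := fun i =>
    h'.tr0 hU (i + 1) (h'.ra hU (by fin_cases i <;> decide)) (h'.pf i)
  have t2 : ∀ i k, i ≠ k → (fr U ρ' i * fr U ρ' k).trace = 0 := fun i k n => by
    have := trace_mul_comm (fr U ρ' i) (fr U ρ' k)
    rw [h'.ra hU n.symm, trace_neg] at this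
    linear_combination this / 2
  have t3 : ∀ a i j k, a ≠ i → a ≠ j → a ≠ k → (fr U ρ' i * (fr U ρ' j * fr U ρ' k)).trace = 0 :=
    fun a i j k n1 n2 n3 => h'.tr0 hU a (by
      rw [w (h'.ra hU n1), w (h'.ra hU n2), h'.ra hU n3]; simp [Matrix.mul_assoc]) (pf' _ _)
  have t4 : (fr U ρ' 0 * (fr U ρ' 1 * (fr U ρ' 2 * fr U ρ' 3))).trace = 0 :=
    h'.tr0 hU 3 (by
      rw [w s30, w s31, w s32]; simp [Matrix.mul_assoc]) (pf' _ _)
  have u1 : ∀ i, (ci U ρ ρ' i).trace = 0 := fun i => by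
    rw [ci, trace_neg, trace_kronecker, t1, zero_mul, neg_zero]
  have u2 : ∀ i k, i ≠ k → (ci U ρ ρ' i * ci U ρ ρ' k).trace = 0 := fun i k n => by
    rw [ci, ci, neg_mul_neg, ← mul_kronecker_mul, trace_kronecker, t2 i k n, zero_mul]
  have u3 : ∀ a i j k, a ≠ i → a ≠ j → a ≠ k →
      (ci U ρ ρ' i * (ci U ρ ρ' j * ci U ρ ρ' k)).trace = 0 := fun a i j k n1 n2 n3 => by
    rw [ci, ci, ci, neg_mul_neg, neg_mul, ← mul_kronecker_mul, ← mul_kronecker_mul, trace_neg,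
      trace_kronecker, t3 a i j k n1 n2 n3, zero_mul, neg_zero]
  have u4 : (ci U ρ ρ' 0 * (ci U ρ ρ' 1 * (ci U ρ ρ' 2 * ci U ρ ρ' 3))).trace = 0 := by
    rw [ci, ci, ci, ci, neg_mul_neg, neg_mul (fr U ρ' 1 ⊗ₖ _), neg_mul_neg, ← mul_kronecker_mul,
      ← mul_kronecker_mul, ← mul_kronecker_mul, trace_kronecker, t4, zero_mul]
  rw [hP_eq h h' hU, exp16 _ _ (e_ci h h') (ci_e h h') (h'.prj.kron h.prj.transpose).idem, trace_smul]
  simp only [trace_add]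
  rw [u1, u1, u1, u1, u2 0 1 (by decide), u2 0 2 (by decide), u2 0 3 (by decide),
    u2 1 2 (by decide), u2 1 3 (by decide), u2 2 3 (by decide),
    u3 3 0 1 2 (by decide) (by decide) (by decide), u3 2 0 1 3 (by decide) (by decide) (by decide),
    u3 1 0 2 3 (by decide) (by decide) (by decide), u3 0 1 2 3 (by decide) (by decide) (by decide),
    u4, trace_kronecker, trace_transpose, h.tr, h'.tr, Complex.real_smul]
  norm_num

end two

section main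

variable (hP4 : P4 P) (h : PC P p ρ) (h' : PC P p' ρ')
include hP4 h h'

theorem trace_hP : (hP ρ ρ').trace = 1 :=
  let ⟨_, hU⟩ := exists_ON hP4.pr hP4.rk; trace_hP' h h' hU

theorem prj_hP : Prj (hP ρ ρ') := by
  obtain ⟨U, hU⟩ := exists_ON hP4.pr hP4.rk
  refine ⟨?_, hP_mul h h' hU (ci_hP h h' hU)⟩
  have e : (hK ρ ρ')ᴴ = hK ρ ρ' := by
    rw [hK_frame h hU, conjTranspose_sum]
    exact sum_congr rfl fun i _ => ci_ct h h' i
  simp only [hP, qR, conjTranspose_smul, conjTranspose_sub, conjTranspose_add, conjTranspose_mul, e,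
    star_trivial, Matrix.mul_assoc]

theorem hP_vec : hP ρ ρ' * vec A = vec A ↔ It p ρ p' ρ' A := by
  obtain ⟨U, hU⟩ := exists_ON hP4.pr hP4.rk
  constructor
  · intro e
    have e1 : ∀ i, -(fr U ρ' i * A * fr U ρ i) = A := fun i => vec_inj (by
      rw [← ci_vec h h' hU, ← e, ← Matrix.mul_assoc, ci_hP h h' hU])
    have e2 : p' * A = A := by
      rw [← e1 0, Matrix.mul_neg, ← Matrix.mul_assoc, ← Matrix.mul_assoc, h'.pf]
    have e3 : A * p = A := by rw [← e1 0, Matrix.neg_mul, Matrix.mul_assoc, h.fp]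
    have e4 : ∀ i, A * fr U ρ i = fr U ρ' i * A := fun i => by
      conv_rhs => rw [← e1 i, Matrix.mul_neg, ← Matrix.mul_assoc, ← Matrix.mul_assoc, h'.rr hU,
        Matrix.neg_mul, Matrix.neg_mul, neg_neg, e2]
    refine ⟨e2, e3, fun a => ?_⟩
    rw [hU.rho_eq h.cl a, hU.rho_eq h'.cl a]
    simp only [Matrix.mul_sum, Matrix.sum_mul, Matrix.mul_smul, Matrix.smul_mul, e4]
  · intro i
    refine hP_mul h h' hU fun k => ?_
    have e4 : A * fr U ρ k = fr U ρ' k * A := by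
      simp only [fr, Matrix.mul_sum, Matrix.sum_mul, Matrix.mul_smul, Matrix.smul_mul, i.ρ]
    rw [ci_vec h h' hU, Matrix.mul_assoc, e4, ← Matrix.mul_assoc, h'.rr hU, Matrix.neg_mul, neg_neg,
      i.pl]

theorem exists_col : ∃ s : Matrix (l × κ) Unit ℂ, PIso s 1 (hP ρ ρ') := by
  have hp := prj_hP hP4 h h'
  obtain ⟨a, ha⟩ := hp.exists_frame
  have hr : (hP ρ ρ').rank = 1 := by
    have := hp.trace_eq_rank
    rw [trace_hP hP4 h h'] at this
    exact_mod_cast this.symm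
  let e : Unit ≃ Fin (hP ρ ρ').rank := (Equiv.ofUnique Unit (Fin 1)).trans (finCongr hr.symm)
  refine ⟨a.submatrix id e, PIso.of_prj (by simp) ?_ ?_⟩
  · rw [conjTranspose_submatrix, ← Equiv.coe_refl, submatrix_mul_equiv, ha.src, submatrix_one_equiv]
  · rw [conjTranspose_submatrix, submatrix_mul_equiv, ha.tgt, submatrix_id_id]

/-- the intertwiners form a line -/
theorem It.eq_smul (i : It p ρ p' ρ' A) (j : It p ρ p' ρ' B) (h0 : A ≠ 0) : ∃ c : ℂ, B = c • A := by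
  obtain ⟨s, hs⟩ := exists_col hP4 h h'
  have e : ∀ {C}, It p ρ p' ρ' C → vec C = (sᴴ * vec C) () () • s := fun {C} k => by
    conv_lhs => rw [← (hP_vec hP4 h h').2 k, ← hs.tgt, Matrix.mul_assoc]
    ext x u
    simp [mul_apply (M := s), mul_comm]
  have n : (sᴴ * vec A) () () ≠ 0 := fun z => h0 (vec_inj (by rw [e i, z, zero_smul]; rfl))
  refine ⟨(sᴴ * vec B) () () / (sᴴ * vec A) () (), vec_inj ?_⟩
  rw [vec_smul, e i, e j, smul_smul]
  congr 1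
  rw [← e i, ← e j, div_mul_cancel₀ _ n]

omit hP4 h' in
theorem PC.ne_zero : p ≠ 0 := fun z => by simpa [z] using h.tr

omit h' in
/-- **Schur** -/
theorem It.schur {C : Matrix κ κ ℂ} (i : It p ρ p ρ C) : C = (C.trace / 4) • p := by
  obtain ⟨c, rfl⟩ := It.eq_smul hP4 h h h.refl.it i h.ne_zero
  rw [trace_smul, h.tr, smul_eq_mul, mul_div_cancel_right₀ _ (by norm_num)]

theorem It.ct_mul (i : It p ρ p' ρ' A) (j : It p ρ p' ρ' B) : Aᴴ * B = ((Aᴴ * B).trace / 4) • p :=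
  It.schur hP4 h (j.mul (i.ct h h'))

theorem It.mul_ct (i : It p ρ p' ρ' A) (j : It p ρ p' ρ' B) : B * Aᴴ = ((Aᴴ * B).trace / 4) • p' := by
  rw [trace_mul_comm]
  exact It.schur hP4 h' ((i.ct h h').mul j)

theorem It.un (i : It p ρ p' ρ' A) (t : (Aᴴ * A).trace = 4) : Un p ρ p' ρ' A :=
  ⟨⟨by rw [i.ct_mul hP4 h h' i, t]; simp, by rw [i.mul_ct hP4 h h' i, t]; simp, i.pr⟩, i.ρ⟩

/-- unit vectors of the line are halves of unitary intertwiners -/
theorem un_of_col {s : Matrix (l × κ) Unit ℂ} (hs : PIso s 1 (hP ρ ρ')) :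
    Un p ρ p' ρ' ((2 : ℂ) • mat s) := by
  refine (It.smul ((hP_vec (A := mat s) hP4 h h').1 hs.left) 2).un hP4 h h' ?_
  have e := congrFun (congrFun ((vec_ct_mul (mat s) (mat s)).symm.trans hs.src) ()) ()
  simp only [of_apply, one_apply_eq] at e
  rw [conjTranspose_smul, Matrix.smul_mul, Matrix.mul_smul, trace_smul, trace_smul, e]
  norm_num

theorem Un.col (i : Un p ρ p' ρ' A) : PIso (vec ((1 / 2 : ℂ) • A)) 1 (hP ρ ρ') := by
  have e : (vec ((1 / 2 : ℂ) • A))ᴴ * vec ((1 / 2 : ℂ) • A) = 1 := by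
    rw [vec_ct_mul, conjTranspose_smul, Matrix.smul_mul, Matrix.mul_smul, i.iso.src, trace_smul,
      trace_smul, h.tr]
    ext
    norm_num
  have k : PIso (vec ((1 / 2 : ℂ) • A)) 1 (vec ((1 / 2 : ℂ) • A) * (vec ((1 / 2 : ℂ) • A))ᴴ) :=
    ⟨e, rfl, Matrix.mul_one _⟩
  have := k.prj_tgt.eq_of_trace (prj_hP hP4 h h')
    (by rw [← Matrix.mul_assoc, (hP_vec hP4 h h').2 (i.it.smul _)])
    (by rw [← k.trace_eq, trace_hP hP4 h h']; simp)
  exact this ▸ k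

theorem exists_un : ∃ A, Un p ρ p' ρ' A :=
  let ⟨_, hs⟩ := exists_col hP4 h h'; ⟨_, un_of_col hP4 h h' hs⟩

/-- two unitary intertwiners differ by a unit scalar -/
theorem Un.ratio (i : Un p ρ p' ρ' A) (j : Un p ρ p' ρ' B) :
    B = ((Aᴴ * B).trace / 4) • A ∧ ‖(Aᴴ * B).trace / 4‖ = 1 := by
  have e : B = ((Aᴴ * B).trace / 4) • A := by
    rw [← i.iso.idem, ← Matrix.mul_smul, i.iso.idem, ← i.it.ct_mul hP4 h h' j.it, ← Matrix.mul_assoc,
      i.iso.tgt, j.iso.left]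
  refine ⟨e, ?_⟩
  have e2 := congrArg trace j.iso.src
  generalize (Aᴴ * B).trace / 4 = c at e
  rw [e, conjTranspose_smul, Matrix.smul_mul, Matrix.mul_smul, i.iso.src, trace_smul, trace_smul,
    h.tr, smul_eq_mul, smul_eq_mul, ← mul_assoc, mul_eq_right₀ (by norm_num), Complex.star_def,
    Complex.conj_mul'] at e2
  have : ‖c‖ ^ 2 = 1 := by exact_mod_cast e2
  exact (pow_eq_one_iff_of_nonneg (norm_nonneg _) two_ne_zero).1 this

end main

theorem Un.smul (i : Un p ρ p' ρ' A) (c : Circle) : Un p ρ p' ρ' ((c : ℂ) • A) := by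
  have e : star (c : ℂ) * c = 1 := by rw [Complex.star_def, Complex.conj_mul', Circle.norm_coe]; simp
  refine ⟨⟨?_, ?_, (i.it.smul c).pr⟩, (i.it.smul c).ρ⟩
  · rw [conjTranspose_smul, Matrix.smul_mul, Matrix.mul_smul, i.iso.src, smul_smul, e, one_smul]
  · rw [conjTranspose_smul, Matrix.smul_mul, Matrix.mul_smul, i.iso.tgt, smul_smul, mul_comm, e, one_smul]

/-! ### rotation, conjugation, twisting, push forward -/

/-- the generators in another frame -/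
def rot (R : Matrix ι ι' ℝ) (ρ : ι → Matrix κ κ ℂ) (k : ι') : Matrix κ κ ℂ := ∑ a, R a k • ρ a

theorem rot_rot {ι'' : Type*} (R : Matrix ι ι' ℝ) (S : Matrix ι' ι'' ℝ) (ρ : ι → Matrix κ κ ℂ) (k : ι'') :
    ∑ b, S b k • rot R ρ b = ∑ a, (R * S) a k • ρ a := by
  simp only [rot, smul_sum, smul_smul, mul_apply, sum_smul, mul_comm]
  exact sum_comm

theorem PC.rot_self (h : PC P p ρ) (hs : ∀ a b, P a b = P b a) : rot (of P) ρ = ρ :=
  funext fun k => by simp only [rot, of_apply, hs _ k, h.cl.proj]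

theorem PC.rot {Q : Matrix ι ι ℝ} {Q' : Matrix ι' ι' ℝ} {R : Matrix ι ι' ℝ} (h : PC Q p ρ)
    (hR : PIso R Q' Q) : PC Q' p (rot R ρ) := by
  have e1 : Rᵀ * R = Q' := by rw [← conjTranspose_eq_transpose_of_trivial, hR.src]
  refine ⟨h.prj, h.tr, ⟨fun a b => ?_, fun a => ?_, fun a => ?_, fun a => ?_⟩, fun a => ?_⟩
  · have e2 : Lab56.rot R ρ b * Lab56.rot R ρ a = ∑ i, ∑ j, (R i a * R j b) • (ρ j * ρ i) := by
      simp only [Lab56.rot, sum_mul_sum, smul_mul_smul_comm]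
      rw [sum_comm]
      simp only [mul_comm]
    have e3 : Q' a b = ∑ i, ∑ j, R i a * R j b * Q i j := by
      rw [show Q' = Rᵀ * (Q * R) by rw [hR.left, e1]]
      simp only [mul_apply, transpose_apply, mul_sum]
      exact sum_congr rfl fun _ _ => sum_congr rfl fun _ _ => by ring
    have e4 : Lab56.rot R ρ a * Lab56.rot R ρ b = ∑ i, ∑ j, (R i a * R j b) • (ρ i * ρ j) := by
      simp only [Lab56.rot, sum_mul_sum, smul_mul_smul_comm]
    rw [e2, e3, e4]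
    simp only [← sum_add_distrib, ← smul_add, h.cl.rel, smul_smul, ← sum_smul, mul_sum]
    congr 1
    exact sum_congr rfl fun _ _ => sum_congr rfl fun _ _ => by ring
  · simp [Lab56.rot, Matrix.mul_sum, h.cl.pl]
  · simp [Lab56.rot, Matrix.sum_mul, h.cl.pr]
  · have s : ∀ b, Q' a b = Q' b a := fun b => by
      conv_lhs => rw [← hR.prj_src.herm]
      simp
    simp only [s, rot_rot, hR.idem]
    rfl
  · simp [Lab56.rot, conjTranspose_sum, h.sk]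

theorem Un.rot (i : Un p ρ p' ρ' A) (R : Matrix ι ι' ℝ) : Un p (rot R ρ) p' (rot R ρ') A :=
  ⟨i.iso, fun k => by
    simp only [Lab56.rot, Matrix.mul_sum, Matrix.sum_mul, Matrix.mul_smul, Matrix.smul_mul, i.ρ]⟩

/-- the conjugate matrix -/
abbrev cj {α β : Type*} (A : Matrix α β ℂ) : Matrix α β ℂ := Aᴴᵀ

theorem cj_mul {α β : Type*} (A : Matrix α κ ℂ) (B : Matrix κ β ℂ) : cj (A * B) = cj A * cj B := by
  rw [cj, conjTranspose_mul, transpose_mul]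

theorem cj_cj {α β : Type*} (A : Matrix α β ℂ) : cj (cj A) = A := by ext; simp

theorem cj_rot (R : Matrix ι ι' ℝ) (ρ : ι → Matrix κ κ ℂ) (k : ι') :
    cj (rot R ρ k) = rot R (fun a => cj (ρ a)) k := by
  ext; simp [rot, Matrix.sum_apply]

theorem PC.bar (h : PC P p ρ) : PC P (cj p) fun a => cj (ρ a) := by
  refine ⟨by rw [cj, h.prj.herm]; exact h.prj.transpose, by rw [cj, h.prj.herm, trace_transpose, h.tr],
    ⟨fun a b => ?_, fun a => ?_, fun a => ?_, fun a => ?_⟩, fun a => ?_⟩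
  · rw [← cj_mul, ← cj_mul, ← transpose_add, ← conjTranspose_add, h.cl.rel]; simp
  · rw [← cj_mul, h.cl.pl]
  · rw [← cj_mul, h.cl.pr]
  · conv_rhs => rw [← h.cl.proj a]
    ext; simp [Matrix.sum_apply]
  · rw [ct_tr, cj, h.sk, conjTranspose_neg, h.sk, transpose_neg]

theorem Un.bar (i : Un p ρ p' ρ' A) :
    Un (cj p) (fun a => cj (ρ a)) (cj p') (fun a => cj (ρ' a)) (cj A) :=
  ⟨by simpa only [cj, i.iso.prj_src.herm, i.iso.prj_tgt.herm] using i.iso.bar,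
    fun a => by rw [← cj_mul, ← cj_mul, i.ρ]⟩

theorem PC.tw (h : PC P p ρ) {q : Matrix m m ℂ} (hq : Prj q) (ht : q.trace = 1) :
    PC P (p ⊗ₖ q) fun a => ρ a ⊗ₖ q := by
  refine ⟨h.prj.kron hq, by rw [trace_kronecker, h.tr, ht, mul_one],
    ⟨fun a b => ?_, fun a => ?_, fun a => ?_, fun a => ?_⟩, fun a => ?_⟩
  · rw [← mul_kronecker_mul, ← mul_kronecker_mul, ← add_kronecker, h.cl.rel, hq.idem]
    ext; simp [mul_assoc]
  · rw [← mul_kronecker_mul, h.cl.pl, hq.idem]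
  · rw [← mul_kronecker_mul, h.cl.pr, hq.idem]
  · conv_rhs => rw [← h.cl.proj a]
    ext
    simp [Matrix.sum_apply, sum_mul, mul_assoc]
  · rw [conjTranspose_kronecker, h.sk, hq.herm, neg_kron]

theorem Un.tw {n : Type*} [Fintype n] [DecidableEq n] (i : Un p ρ p' ρ' A) {q : Matrix m m ℂ}
    {q' : Matrix n n ℂ} {u : Matrix n m ℂ} (hu : PIso u q q') :
    Un (p ⊗ₖ q) (fun a => ρ a ⊗ₖ q) (p' ⊗ₖ q') (fun a => ρ' a ⊗ₖ q') (A ⊗ₖ u) :=
  ⟨i.iso.kron hu, fun a => by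
    rw [← mul_kronecker_mul, ← mul_kronecker_mul, i.ρ, hu.idem, hu.left]⟩

theorem rot_tw (R : Matrix ι ι' ℝ) (ρ : ι → Matrix κ κ ℂ) (q : Matrix m m ℂ) (k : ι') :
    rot R (fun a => ρ a ⊗ₖ q) k = rot R ρ k ⊗ₖ q := by
  ext
  simp [rot, Matrix.sum_apply, sum_mul, mul_assoc]

theorem PC.push (h : PC P p ρ) (hA : PIso A p p') :
    PC P p' (fun a => A * ρ a * Aᴴ) ∧ Un p ρ p' (fun a => A * ρ a * Aᴴ) A := by
  have e : ∀ X Y : Matrix κ κ ℂ, X * p = X → A * X * Aᴴ * (A * Y * Aᴴ) = A * (X * Y) * Aᴴ :=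
    fun X Y k => by
      simp only [Matrix.mul_assoc]
      rw [← Matrix.mul_assoc Aᴴ, hA.src, ← Matrix.mul_assoc X, k]
  refine ⟨⟨hA.prj_tgt, hA.trace_eq ▸ h.tr,
    ⟨fun a b => ?_, fun a => ?_, fun a => ?_, fun a => ?_⟩, fun a => ?_⟩, hA, fun a => ?_⟩
  · rw [e _ _ (h.cl.pr a), e _ _ (h.cl.pr b), ← Matrix.add_mul, ← Matrix.mul_add, h.cl.rel,
      Matrix.mul_smul, Matrix.smul_mul, hA.conj]
  · rw [← Matrix.mul_assoc, ← Matrix.mul_assoc, hA.left]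
  · rw [Matrix.mul_assoc, hA.ct_right]
  · conv_rhs => rw [← h.cl.proj a]
    simp [Matrix.mul_sum, Matrix.sum_mul]
  · simp [h.sk, Matrix.mul_assoc]
  · rw [Matrix.mul_assoc, Matrix.mul_assoc, hA.src, h.cl.pr]

end Crest.Agent.X212.Lab56
end
end

-- ▼ part X212/Lab56/Defs

/-!
# X212 / Lab56, part Defs (helper56): spin^c data

* `C8 M ι κ` : fields of complex spinor modules, `C8.On I P O`, `CI I m m' u O` (unitary intertwiners),
  `rot`, `bar`, `tw`, `comp`, the line `hl m m'` of intertwiners;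
* `M8 M ι κ` : the same in the real format of layer AN, `C8.re`;
* `Sc I M ι κ` : a spanning frame with a module, `pol` (polar rotation between frames), `tp`, `Iw`, `Eqv`,
  `pull`, `bar`, `tw`, `hl`, `det`.
-/

set_option autoImplicit false
set_option linter.unusedSectionVars false

open Set Filter Topology Function Matrix Module
open scoped ContDiff Manifold Kronecker ComplexOrder
open Crest.Agent.X212.Pj41 Crest.Agent.X212.Met55
open Crest.Agent.X212.An (Eu CL En Sym Skw trn)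
open Crest.Agent.X212.Wz78 (Pr Cl)
open Crest.Agent.X212.Line51 (Uni rl iL)

noncomputable section

namespace Crest.Agent.X212.Lab56

variable {E : Type} [NormedAddCommGroup E] [NormedSpace ℝ E] [FiniteDimensional ℝ E]
  {H : Type} [TopologicalSpace H] {I : ModelWithCorners ℝ E H}
  {M : Type} [TopologicalSpace M] [ChartedSpace H M] [IsManifold I ∞ M]
  {E' : Type} [NormedAddCommGroup E'] [NormedSpace ℝ E'] [FiniteDimensional ℝ E']
  {H' : Type} [TopologicalSpace H'] {I' : ModelWithCorners ℝ E' H'}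
  {N : Type} [TopologicalSpace N] [ChartedSpace H' N] [IsManifold I' ∞ N]
  {ι ι' ι'' κ l n k : Type} [Fintype ι] [Fintype ι'] [Fintype ι''] [Fintype κ] [Fintype l] [Fintype n]
  [Fintype k] [DecidableEq ι] [DecidableEq ι'] [DecidableEq ι''] [DecidableEq κ] [DecidableEq l]
  [DecidableEq n] [DecidableEq k]

/-! ### fields of modules -/

/-- the data of a complex spinor module -/
structure C8 (M ι κ : Type) where
  p : M → Matrix κ κ ℂ
  ρ : ι → M → Matrix κ κ ℂ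

namespace C8

/-- the generators at a point -/
abbrev r (m : C8 M ι κ) (x : M) : ι → Matrix κ κ ℂ := fun a => m.ρ a x

variable (I) in
/-- a smooth module over the range of `P` on `O` -/
structure On (P : M → Matrix ι ι ℝ) (m : C8 M ι κ) (O : Set M) : Prop where
  p4 : ∀ x ∈ O, P4 (P x)
  sp : ∀ x ∈ O, MSm I m.p x
  sρ : ∀ a, ∀ x ∈ O, MSm I (m.ρ a) x
  pc : ∀ x ∈ O, PC (P x) (m.p x) (m.r x)

/-- change of the frame -/
def rot (m : C8 M ι κ) (R : M → Matrix ι ι' ℝ) : C8 M ι' κ :=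
  ⟨m.p, fun a x => Lab56.rot (R x) (m.r x) a⟩

/-- the conjugate module -/
def bar (m : C8 M ι κ) : C8 M ι κ := ⟨fun x => cj (m.p x), fun a x => cj (m.ρ a x)⟩

/-- twisting by a line -/
def tw (m : C8 M ι κ) (q : M → Matrix n n ℂ) : C8 M ι (κ × n) :=
  ⟨fun x => m.p x ⊗ₖ q x, fun a x => m.ρ a x ⊗ₖ q x⟩

/-- pull-back -/
def comp (m : C8 M ι κ) (f : N → M) : C8 N ι κ := ⟨fun y => m.p (f y), fun a y => m.ρ a (f y)⟩

end C8

variable (I) in
/-- a smooth unitary intertwiner on `O` -/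
structure CI (m : C8 M ι κ) (m' : C8 M ι l) (u : M → Matrix l κ ℂ) (O : Set M) : Prop where
  sm : ∀ x ∈ O, MSm I u x
  un : ∀ x ∈ O, Un (m.p x) (m.r x) (m'.p x) (m'.r x) (u x)

/-- the line of intertwiners -/
def hl (m : C8 M ι κ) (m' : C8 M ι l) (x : M) : Matrix (l × κ) (l × κ) ℂ := hP (m.r x) (m'.r x)

variable (I) in
/-- a smooth line on `O` -/
structure LOn (q : M → Matrix n n ℂ) (O : Set M) : Prop where
  sm : ∀ x ∈ O, MSm I q x
  prj : ∀ x ∈ O, Prj (q x)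
  tr : ∀ x ∈ O, (q x).trace = 1

section mod

variable {P : M → Matrix ι ι ℝ} {P' : M → Matrix ι' ι' ℝ} {m : C8 M ι κ} {m' : C8 M ι l}
  {m'' : C8 M ι n} {u : M → Matrix l κ ℂ} {w : M → Matrix n l ℂ} {O O' : Set M}
  {q : M → Matrix n n ℂ} {q' : M → Matrix k k ℂ}

theorem LOn.mono (h : LOn I q O) (hO : O' ⊆ O) : LOn I q O' :=
  ⟨fun x hx => h.sm x (hO hx), fun x hx => h.prj x (hO hx), fun x hx => h.tr x (hO hx)⟩

theorem LOn.comp {f : N → M} {W : Set N} (h : LOn I q O) (hf : ∀ y ∈ W, ContMDiffAt I' I ∞ f y)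
    (hm : MapsTo f W O) : LOn I' (fun y => q (f y)) W :=
  ⟨fun y hy => (h.sm _ (hm hy)).comp (hf y hy), fun _ hy => h.prj _ (hm hy), fun _ hy => h.tr _ (hm hy)⟩

theorem LOn.of_ln {L : Line51.Ln E M n} (h : L.On I O) : LOn I L.p O := ⟨h.sm, h.prj, h.tr⟩

theorem C8.On.mono (h : m.On I P O) (hO : O' ⊆ O) : m.On I P O' :=
  ⟨fun x hx => h.p4 x (hO hx), fun x hx => h.sp x (hO hx), fun a x hx => h.sρ a x (hO hx),
    fun x hx => h.pc x (hO hx)⟩

theorem C8.On.congr {Q : M → Matrix ι ι ℝ} (h : m.On I P O) (e : ∀ x ∈ O, Q x = P x) : m.On I Q O :=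
  ⟨fun x hx => e x hx ▸ h.p4 x hx, h.sp, h.sρ, fun x hx => e x hx ▸ h.pc x hx⟩

theorem p4_of_piso {Q : Matrix ι ι ℝ} {Q' : Matrix ι' ι' ℝ} {R : Matrix ι ι' ℝ} (h : P4 Q)
    (hR : PIso R Q' Q) : P4 Q' :=
  ⟨⟨fun a b => by
      conv_lhs => rw [← hR.prj_src.herm]
      simp, fun a b => congrFun (congrFun hR.prj_src.idem a) b⟩, hR.trace_eq.trans h.rk⟩

theorem msm_rot {R : M → Matrix ι ι' ℝ} {x : M} (hR : MSm I R x) (h : ∀ a, MSm I (m.ρ a) x) (b : ι') :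
    MSm I ((m.rot R).ρ b) x := MSm.sum fun a _ => MSm.rsmul (hR a b) (h a)

theorem C8.On.rot (h : m.On I P O) {R : M → Matrix ι ι' ℝ} (sR : ∀ x ∈ O, MSm I R x)
    (hR : ∀ x ∈ O, PIso (R x) (P' x) (P x)) : (m.rot R).On I P' O :=
  ⟨fun x hx => p4_of_piso (h.p4 x hx) (hR x hx), h.sp,
    fun b x hx => msm_rot (sR x hx) (fun a => h.sρ a x hx) b, fun x hx => (h.pc x hx).rot (hR x hx)⟩

theorem C8.On.bar (h : m.On I P O) : m.bar.On I P O :=
  ⟨h.p4, fun x hx => (h.sp x hx).ct.transpose, fun a x hx => (h.sρ a x hx).ct.transpose,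
    fun x hx => (h.pc x hx).bar⟩

theorem C8.On.tw (h : m.On I P O) (hq : LOn I q O) : (m.tw q).On I P O :=
  ⟨h.p4, fun x hx => (h.sp x hx).kron (hq.sm x hx), fun a x hx => (h.sρ a x hx).kron (hq.sm x hx),
    fun x hx => (h.pc x hx).tw (hq.prj x hx) (hq.tr x hx)⟩

theorem C8.On.comp {f : N → M} {W : Set N} (h : m.On I P O) (hf : ∀ y ∈ W, ContMDiffAt I' I ∞ f y)
    (hm : MapsTo f W O) : (m.comp f).On I' (fun y => P (f y)) W :=
  ⟨fun _ hy => h.p4 _ (hm hy), fun y hy => (h.sp _ (hm hy)).comp (hf y hy),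
    fun a y hy => (h.sρ a _ (hm hy)).comp (hf y hy), fun _ hy => h.pc _ (hm hy)⟩

theorem C8.bar_bar (m : C8 M ι κ) : m.bar.bar = m := by
  simp only [C8.bar, cj_cj]

theorem CI.mono (h : CI I m m' u O) (hO : O' ⊆ O) : CI I m m' u O' :=
  ⟨fun x hx => h.sm x (hO hx), fun x hx => h.un x (hO hx)⟩

theorem CI.uni (h : CI I m m' u O) : Uni I m.p m'.p u O := ⟨h.sm, fun x hx => (h.un x hx).iso⟩

theorem C8.On.refl (h : m.On I P O) : CI I m m m.p O := ⟨h.sp, fun x hx => (h.pc x hx).refl⟩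

theorem CI.symm (h : m.On I P O) (h' : m'.On I P O) (i : CI I m m' u O) :
    CI I m' m (fun x => (u x)ᴴ) O :=
  ⟨fun x hx => (i.sm x hx).ct, fun x hx => (i.un x hx).symm (h.pc x hx) (h'.pc x hx)⟩

theorem CI.trans (i : CI I m m' u O) (j : CI I m' m'' w O) : CI I m m'' (fun x => w x * u x) O :=
  ⟨fun x hx => (j.sm x hx).mul (i.sm x hx), fun x hx => (i.un x hx).trans (j.un x hx)⟩

/-- only the values on `O` matter -/
theorem CI.of_eq {a : C8 M ι κ} {a' : C8 M ι l} (i : CI I m m' u O)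
    (e : ∀ x ∈ O, a.p x = m.p x ∧ a.r x = m.r x) (e' : ∀ x ∈ O, a'.p x = m'.p x ∧ a'.r x = m'.r x) :
    CI I a a' u O :=
  ⟨i.sm, fun x hx => by rw [(e x hx).1, (e x hx).2, (e' x hx).1, (e' x hx).2]; exact i.un x hx⟩

theorem CI.congr {u' : M → Matrix l κ ℂ} (hO : IsOpen O) (i : CI I m m' u O) (e : EqOn u' u O) :
    CI I m m' u' O :=
  ⟨fun x hx => (i.sm x hx).congr (eventually_of_mem (hO.mem_nhds hx) e),
    fun x hx => (e hx).symm ▸ i.un x hx⟩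

theorem CI.rot (i : CI I m m' u O) (R : M → Matrix ι ι' ℝ) : CI I (m.rot R) (m'.rot R) u O :=
  ⟨i.sm, fun x hx => (i.un x hx).rot (R x)⟩

theorem CI.bar (i : CI I m m' u O) : CI I m.bar m'.bar (fun x => cj (u x)) O :=
  ⟨fun x hx => (i.sm x hx).ct.transpose, fun x hx => (i.un x hx).bar⟩

theorem CI.tw (i : CI I m m' u O) {v : M → Matrix k n ℂ} (hv : Uni I q q' v O) :
    CI I (m.tw q) (m'.tw q') (fun x => u x ⊗ₖ v x) O :=
  ⟨fun x hx => (i.sm x hx).kron (hv.sm x hx), fun x hx => (i.un x hx).tw (hv.iso x hx)⟩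

theorem CI.comp {f : N → M} {W : Set N} (i : CI I m m' u O) (hf : ∀ y ∈ W, ContMDiffAt I' I ∞ f y)
    (hm : MapsTo f W O) : CI I' (m.comp f) (m'.comp f) (fun y => u (f y)) W :=
  ⟨fun y hy => (i.sm _ (hm hy)).comp (hf y hy), fun _ hy => i.un _ (hm hy)⟩

theorem CI.smul (i : CI I m m' u O) {g : M → Circle} (hg : ∀ x ∈ O, FSm I (fun y => (g y : ℂ)) x) :
    CI I m m' (fun x => (g x : ℂ) • u x) O :=
  ⟨fun x hx => MSm.smul (hg x hx) (i.sm x hx), fun x hx => (i.un x hx).smul (g x)⟩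

theorem msm_qR {K : M → Matrix κ κ ℂ} {x : M} (h : MSm I K x) : MSm I (fun y => qR (K y)) x :=
  MSm.rsmul contMDiffAt_const ((((h.mul (h.mul (h.mul h))).add
    (MSm.rsmul contMDiffAt_const (h.mul (h.mul h)))).sub (MSm.rsmul contMDiffAt_const (h.mul h))).sub
      (MSm.rsmul contMDiffAt_const h))

theorem lOn_hl (h : m.On I P O) (h' : m'.On I P O) : LOn I (hl m m') O :=
  ⟨fun x hx => msm_qR (MSm.sum fun a _ => (h'.sρ a x hx).kron (h.sρ a x hx).transpose).neg,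
    fun x hx => prj_hP (h.p4 x hx) (h.pc x hx) (h'.pc x hx),
    fun x hx => trace_hP (h.p4 x hx) (h.pc x hx) (h'.pc x hx)⟩

/-- the unit section of `hl` given by an intertwiner -/
def col (u : M → Matrix l κ ℂ) (x : M) : Matrix (l × κ) Unit ℂ := vec ((1 / 2 : ℂ) • u x)

/-- the intertwiner given by a unit section of `hl` -/
def unc (s : M → Matrix (l × κ) Unit ℂ) (x : M) : Matrix l κ ℂ := (2 : ℂ) • mat (s x)

theorem col_unc (s : M → Matrix (l × κ) Unit ℂ) : col (unc s) = s := by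
  funext x; ext; simp [col, unc, vec, mat]

theorem unc_col (u : M → Matrix l κ ℂ) : unc (col u) = u := by
  funext x; ext; simp [col, unc, vec, mat]

theorem CI.col (h : m.On I P O) (h' : m'.On I P O) (i : CI I m m' u O) :
    Uni I (fun _ => 1) (hl m m') (col u) O :=
  ⟨fun x hx a _ => MSm.smul contMDiffAt_const (i.sm x hx) a.1 a.2,
    fun x hx => (i.un x hx).col (h.p4 x hx) (h.pc x hx) (h'.pc x hx)⟩

theorem ci_unc (h : m.On I P O) (h' : m'.On I P O) {s : M → Matrix (l × κ) Unit ℂ}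
    (hs : Uni I (fun _ => 1) (hl m m') s O) : CI I m m' (unc s) O :=
  ⟨fun x hx => MSm.smul contMDiffAt_const fun a b => hs.sm x hx (a, b) (),
    fun x hx => un_of_col (h.p4 x hx) (h.pc x hx) (h'.pc x hx) (hs.iso x hx)⟩

/-- gluing of two modules -/
theorem C8.exists_glue [T2Space M] [SigmaCompactSpace M] {U V : Set M} (hU : IsOpen U) (hV : IsOpen V)
    (hc : U ∪ V = univ) (h : m.On I P U) (h' : m'.On I P V) (i : CI I m m' u (U ∩ V)) :
    ∃ (g : C8 M ι (κ ⊕ l)) (a : M → Matrix (κ ⊕ l) κ ℂ) (b : M → Matrix (κ ⊕ l) l ℂ),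
      g.On I P univ ∧ CI I m g a U ∧ CI I m' g b V ∧ ∀ x ∈ U ∩ V, b x * u x = a x := by
  obtain ⟨Q, a, b, h1, h2, h3, h4, -⟩ := exists_glue_two hU hV hc
    (fun x hx => ⟨h.sp x hx, (h.pc x hx).prj⟩) (fun x hx => ⟨h'.sp x hx, (h'.pc x hx).prj⟩)
    fun x hx hx' => ⟨i.sm x ⟨hx, hx'⟩, (i.un x ⟨hx, hx'⟩).iso⟩
  have hc' : ∀ x, x ∈ U ∨ x ∈ V := fun x => (hc ▸ mem_univ x : x ∈ U ∪ V)
  have key : ∀ c, ∀ x ∈ U, x ∈ V → a x * m.ρ c x * (a x)ᴴ = b x * m'.ρ c x * (b x)ᴴ :=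
    fun c x hx hx' => by
      have k := i.un x ⟨hx, hx'⟩
      rw [← (h4 x hx hx').2, conjTranspose_mul, Matrix.mul_assoc (b x), k.ρ, Matrix.mul_assoc,
        Matrix.mul_assoc, ← Matrix.mul_assoc (u x), k.iso.tgt, ← Matrix.mul_assoc _ (m'.p x),
        (h'.pc x hx').cl.pr, Matrix.mul_assoc]
  have ex : ∀ c, ∃ t : M → Matrix (κ ⊕ l) (κ ⊕ l) ℂ, (∀ x, MSm I t x) ∧
      (∀ x ∈ U, t x = a x * m.ρ c x * (a x)ᴴ) ∧ ∀ x ∈ V, t x = b x * m'.ρ c x * (b x)ᴴ := fun c => by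
    obtain ⟨t, t1, t2⟩ := exists_patch_sm (I := I) (U := fun z : Bool => cond z U V)
      (by rintro (_ | _); exacts [hV, hU])
      (fun x => (hc' x).elim (fun e => ⟨true, e⟩) fun e => ⟨false, e⟩)
      (fun z x => cond z (a x * m.ρ c x * (a x)ᴴ) (b x * m'.ρ c x * (b x)ᴴ))
      (by
        rintro (_ | _) x hx
        exacts [((h3 x hx).1.mul (h'.sρ c x hx)).mul (h3 x hx).1.ct,
          ((h2 x hx).1.mul (h.sρ c x hx)).mul (h2 x hx).1.ct])
      (by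
        rintro (_ | _) (_ | _) x h5 h6
        exacts [rfl, (key c x h6 h5).symm, key c x h5 h6, rfl])
    exact ⟨t, t1, t2 true, t2 false⟩
  choose t t1 t2 t3 using ex
  have eU : ∀ x ∈ U, (fun c => t c x) = fun c => a x * m.ρ c x * (a x)ᴴ :=
    fun x hx => funext fun c => t2 c x hx
  have eV : ∀ x ∈ V, (fun c => t c x) = fun c => b x * m'.ρ c x * (b x)ᴴ :=
    fun x hx => funext fun c => t3 c x hx
  refine ⟨⟨Q, t⟩, a, b, ⟨fun x _ => (hc' x).elim (h.p4 x) (h'.p4 x), fun x _ => (h1 x).1,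
    fun c x _ => t1 c x, fun x _ => ?_⟩, ⟨fun x hx => (h2 x hx).1, fun x hx => ?_⟩,
    ⟨fun x hx => (h3 x hx).1, fun x hx => ?_⟩, fun x hx => (h4 x hx.1 hx.2).2⟩
  · show PC (P x) (Q x) fun c => t c x
    rcases hc' x with hx | hx
    · rw [eU x hx]; exact ((h.pc x hx).push (h2 x hx).2).1
    · rw [eV x hx]; exact ((h'.pc x hx).push (h3 x hx).2).1
  · show Un _ _ (Q x) (fun c => t c x) _
    rw [eU x hx]; exact ((h.pc x hx).push (h2 x hx).2).2
  · show Un _ _ (Q x) (fun c => t c x) _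
    rw [eV x hx]; exact ((h'.pc x hx).push (h3 x hx).2).2

end mod

/-! ### the real format -/

/-- the data of a real spinor module of rank eight -/
structure M8 (M ι κ : Type) [Fintype κ] where
  J : En κ
  p : M → En κ
  ρ : ι → M → En κ

variable (I) in
/-- a smooth real module over the range of `P` on `O` -/
structure M8.On (P : ι → ι → M → ℝ) (m : M8 M ι κ) (O : Set M) : Prop where
  Jsq : m.J * m.J = -1
  Jsk : Skw m.J
  sp : ∀ x ∈ O, FSm I m.p x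
  sρ : ∀ a, ∀ x ∈ O, FSm I (m.ρ a) x
  psym : ∀ x ∈ O, Sym (m.p x)
  pidem : ∀ x ∈ O, m.p x * m.p x = m.p x
  prk : ∀ x ∈ O, LinearMap.trace ℝ _ (m.p x : Eu κ →ₗ[ℝ] Eu κ) = 8
  Jp : ∀ x ∈ O, m.J * m.p x = m.p x * m.J
  cl : ∀ x ∈ O, Cl (fun a b => P a b x) (m.p x) fun a => m.ρ a x
  ρsk : ∀ a, ∀ x ∈ O, Skw (m.ρ a x)
  Jρ : ∀ a, ∀ x ∈ O, m.J * m.ρ a x = m.ρ a x * m.J

/-- the real module of a complex module -/
def C8.re (m : C8 M ι κ) : M8 M ι (κ ⊕ κ) := ⟨iL κ, fun x => rl (m.p x), fun a x => rl (m.ρ a x)⟩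

theorem C8.On.re {P : M → Matrix ι ι ℝ} {m : C8 M ι κ} {O : Set M} (h : m.On I P O) :
    m.re.On I (fun a b x => P x a b) O := by
  refine ⟨Line51.iL_sq, Line51.iL_skw, fun x hx => Line51.fsm_rl (h.sp x hx),
    fun a x hx => Line51.fsm_rl (h.sρ a x hx), fun x hx => Line51.sym_rl (h.pc x hx).prj.herm,
    fun x hx => (Line51.rl_mul _ _).symm.trans (congrArg rl (h.pc x hx).prj.idem),
    fun x hx => (Line51.rl_trace _).trans (by rw [(h.pc x hx).tr]; norm_num),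
    fun x _ => Line51.iL_mul _, fun x hx => ⟨fun a b => ?_, fun a => ?_, fun a => ?_, fun a => ?_⟩,
    fun a x hx => Line51.skw_rl ((h.pc x hx).sk a), fun a x _ => Line51.iL_mul _⟩ <;>
    simp only [C8.re, ← Line51.rl_mul, ← map_add, ← map_smul, ← map_sum]
  exacts [congrArg rl ((h.pc x hx).cl.rel a b), congrArg rl ((h.pc x hx).cl.pl a),
    congrArg rl ((h.pc x hx).cl.pr a), congrArg rl ((h.pc x hx).cl.proj a)]

/-- the real form of a unitary intertwiner -/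
theorem CI.re {m : C8 M ι κ} {m' : C8 M ι l} {u : M → Matrix l κ ℂ} {O : Set M} (i : CI I m m' u O)
    {x : M} (hx : x ∈ O) : FSm I (fun y => rl (u y)) x ∧ trn (rl (u x)) ∘L rl (u x) = m.re.p x ∧
      rl (u x) ∘L trn (rl (u x)) = m'.re.p x ∧ rl (u x) ∘L m.re.J = m'.re.J ∘L rl (u x) ∧
      ∀ a, rl (u x) ∘L m.re.ρ a x = m'.re.ρ a x ∘L rl (u x) := by
  refine ⟨Line51.fsm_rl (i.sm x hx), ?_, ?_, Line51.rl_comp_iL _, fun a => ?_⟩ <;>
    simp only [C8.re, ← Line51.rl_ct, ← Line51.rl_comp]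
  exacts [congrArg rl (i.un x hx).iso.src, congrArg rl (i.un x hx).iso.tgt,
    congrArg rl ((i.un x hx).ρ a)]

/-! ### frames -/

/-- an isomorphism from the range of `Q'` onto the range of `Q` -/
structure GI (G : Matrix ι ι' ℝ) (Q' : Matrix ι' ι' ℝ) (Q : Matrix ι ι ℝ) : Prop where
  src : Prj Q'
  tgt : Prj Q
  r : G * Q' = G
  l : Q * G = G
  inv : ∃ G' : Matrix ι' ι ℝ, G' * G = Q'
  tr : Q'.trace = Q.trace

theorem GI.pos {G : Matrix ι ι' ℝ} {Q' : Matrix ι' ι' ℝ} {Q : Matrix ι ι ℝ} (h : GI G Q' Q) :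
    (gram Q' G).PosDef := let ⟨_, e⟩ := h.inv; gram_posDef_of_left_inv h.src e

theorem GI.piso {G : Matrix ι ι' ℝ} {Q' : Matrix ι' ι' ℝ} {Q : Matrix ι ι ℝ} (h : GI G Q' Q) :
    PIso (nrm Q' G) Q' Q := nrm_piso h.src h.tgt h.r h.l h.pos h.tr

/-- the polar rotation from the frame `w` to the frame `e` -/
def pol (e : ι → VF I M) (w : ι' → VF I M) (x : M) : Matrix ι ι' ℝ := nrm (fP w x) (fM e w x)

section frames

variable {e : ι → VF I M} {w : ι' → VF I M} {z : ι'' → VF I M} {x : M}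

theorem prj_fP (h : Sp (atx e x)) : Prj (fP e x) :=
  ⟨by rw [conjTranspose_eq_transpose_of_trivial]; exact prj_transpose, h.prj_prj⟩

theorem p4_fP (h4 : finrank ℝ E = 4) (h : Sp (atx e x)) : P4 (fP e x) :=
  ⟨⟨prj_symm, fun a b => congrFun (congrFun h.prj_prj a) b⟩,
    (h.trace_prj (b := finBasis ℝ E)).trans (by simp [h4])⟩

theorem fM_mul (h : Sp (atx w x)) : fM e w x * fM w z x = fM e z x := by
  rw [fM, fM, fM, tm, tm, tm, Matrix.mul_assoc, ← Matrix.mul_assoc (fm _ _), h.fm_ri, Matrix.one_mul]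

theorem fM_self : fM e e x = fP e x := rfl

theorem gi_fM (h : Sp (atx e x)) (h' : Sp (atx w x)) : GI (fM e w x) (fP w x) (fP e x) :=
  ⟨prj_fP h', prj_fP h, fM_mul (z := w) h', h.prj_tm, ⟨_, fM_mul (e := w) h⟩,
    (h'.trace_prj (b := finBasis ℝ E)).trans (h.trace_prj (b := finBasis ℝ E)).symm⟩

theorem piso_pol (h : Sp (atx e x)) (h' : Sp (atx w x)) : PIso (pol e w x) (fP w x) (fP e x) :=
  (gi_fM h h').piso

theorem msm_pol (h : FAt e x) (h' : FAt w x) : MSm I (pol e w) x :=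
  MSm.nrm h'.msm_fP (msm_fM h h'.sm) ((sp_eventually h'.sm h'.sp).mono fun _ k => prj_fP k)
    (gi_fM h.sp h'.sp).pos

theorem pol_of_piso (h : PIso (fM e w x) (fP w x) (fP e x)) : pol e w x = fM e w x := nrm_of_piso h

theorem pol_self (h : Sp (atx e x)) : pol e e x = fP e x := nrm_of_piso (prj_fP h).refl

/-- for frames of the same metric the rotation is the matrix of coefficients -/
theorem pol_of_co (h : Sp (atx e x)) (h' : Sp (atx w x)) (c : Co (atx e x) (atx w x)) :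
    pol e w x = fM e w x :=
  pol_of_piso ⟨by rw [conjTranspose_eq_transpose_of_trivial]; exact (fM_rot h c).2,
    by rw [conjTranspose_eq_transpose_of_trivial]; exact (fM_rot h c).1, (gi_fM h h').r⟩

theorem pol_rel {f : N → M} {y : N} (h : IsLocalDiffeomorphAt I' I ∞ f y) {e' : ι → VF I' N}
    {w' : ι' → VF I' N} (hs : Sp (atx e' y)) (hs' : Sp (atx w' y))
    (hr : ∀ a, mfderiv I' I f y (e' a y) = e a (f y)) (hw : ∀ a, mfderiv I' I f y (w' a y) = w a (f y)) :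
    pol e' w' y = pol e w (f y) := by
  rw [pol, pol, fP_rel h hs' hw, fM_rel h hs hr hw]

end frames

/-! ### spin^c data -/

variable (I M) in
/-- a spanning frame with a module -/
structure Sc (ι κ : Type) where
  e : ι → VF I M
  m : C8 M ι κ

namespace Sc

/-- smooth data on `O` -/
structure On (d : Sc I M ι κ) (O : Set M) : Prop where
  fr : ∀ x ∈ O, FAt d.e x
  m : d.m.On I (fP d.e) O

/-- the module transported to the frame `w` -/
def tp (d : Sc I M ι κ) (w : ι' → VF I M) : C8 M ι' κ := d.m.rot (pol d.e w)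

variable (I') in
/-- pull-back along a local diffeomorphism -/
def pull (d : Sc I M ι κ) (f : N → M) : Sc I' N ι κ := ⟨fun a => pbv I' I f (d.e a), d.m.comp f⟩

/-- the conjugate structure -/
def bar (d : Sc I M ι κ) : Sc I M ι κ := ⟨d.e, d.m.bar⟩

/-- twisting by a line -/
def tw (d : Sc I M ι κ) (q : M → Matrix n n ℂ) : Sc I M ι (κ × n) := ⟨d.e, d.m.tw q⟩

/-- the difference line -/
def hl (d : Sc I M ι κ) (d' : Sc I M ι' l) : M → Matrix (l × κ) (l × κ) ℂ := Lab56.hl (d.tp d'.e) d'.m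

/-- the determinant line -/
def det (d : Sc I M ι κ) : M → Matrix (κ × κ) (κ × κ) ℂ := Lab56.hl d.m.bar d.m

end Sc

/-- an isomorphism of spin^c data on `O` -/
abbrev Iw (d : Sc I M ι κ) (d' : Sc I M ι' l) (u : M → Matrix l κ ℂ) (O : Set M) : Prop :=
  CI I (d.tp d'.e) d'.m u O

/-- isomorphic spin^c data on `O` -/
def Eqv (d : Sc I M ι κ) (d' : Sc I M ι' l) (O : Set M) : Prop := ∃ u, Iw d d' u O

section sc

variable {d : Sc I M ι κ} {d' : Sc I M ι' l} {O O' : Set M} {w : ι' → VF I M} {f : N → M} {W : Set N}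
  {u : M → Matrix l κ ℂ} {q : M → Matrix n n ℂ} {q' : M → Matrix k k ℂ}

theorem Sc.On.mono (h : d.On O) (hO : O' ⊆ O) : d.On O' := ⟨fun x hx => h.fr x (hO hx), h.m.mono hO⟩

theorem Sc.On.tp (h : d.On O) (hw : ∀ x ∈ O, FAt w x) : (d.tp w).On I (fP w) O :=
  h.m.rot (fun x hx => msm_pol (h.fr x hx) (hw x hx)) fun x hx => piso_pol (h.fr x hx).sp (hw x hx).sp

theorem Sc.On.chg (h : d.On O) (hw : ∀ x ∈ O, FAt w x) : (⟨w, d.tp w⟩ : Sc I M ι' κ).On O :=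
  ⟨hw, h.tp hw⟩

theorem Sc.On.bar (h : d.On O) : d.bar.On O := ⟨h.fr, h.m.bar⟩

theorem Sc.On.tw (h : d.On O) (hq : LOn I q O) : (d.tw q).On O := ⟨h.fr, h.m.tw hq⟩

theorem Sc.On.pull (h : d.On O) (hf : ∀ y ∈ W, IsLocalDiffeomorphAt I' I ∞ f y) (hm : MapsTo f W O) :
    (d.pull I' f).On W :=
  ⟨fun y hy => (h.fr _ (hm hy)).pbv (hf y hy),
    (h.m.comp (fun y hy => (hf y hy).contMDiffAt) hm).congr fun y hy =>
      fP_rel (hf y hy) ((h.fr _ (hm hy)).pbv (hf y hy)).sp fun a => pbv_rel (hf y hy) (d.e a)⟩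

theorem Sc.On.hl (h : d.On O) (h' : d'.On O) : LOn I (d.hl d') O := lOn_hl (h.tp h'.fr) h'.m

theorem Sc.On.det (h : d.On O) : LOn I d.det O := lOn_hl h.m.bar h.m

theorem Sc.On.re (h : d.On O) : d.m.re.On I (fun a b x => fP d.e x a b) O := h.m.re

theorem Sc.On.tp_self (h : d.On O) {x : M} (hx : x ∈ O) : (d.tp d.e).r x = d.m.r x := by
  have := (h.m.pc x hx).rot_self (h.m.p4 x hx).pr.symm
  rw [← this]
  exact congrArg (fun R => rot R (d.m.r x)) (pol_self (h.fr x hx).sp)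

/-- for a common frame `Iw` is `CI` -/
theorem iw_iff {m' : C8 M ι l} (h : d.On O) : Iw d ⟨d.e, m'⟩ u O ↔ CI I d.m m' u O :=
  ⟨fun i => i.of_eq (fun _ hx => ⟨rfl, (h.tp_self hx).symm⟩) fun _ _ => ⟨rfl, rfl⟩,
    fun i => i.of_eq (fun _ hx => ⟨rfl, h.tp_self hx⟩) fun _ _ => ⟨rfl, rfl⟩⟩

theorem Eqv.mono (h : Eqv d d' O) (hO : O' ⊆ O) : Eqv d d' O' := let ⟨u, i⟩ := h; ⟨u, i.mono hO⟩

theorem Eqv.refl (h : d.On O) : Eqv d d O := ⟨_, (iw_iff h).2 h.m.refl⟩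

theorem Eqv.chg (h : d.On O) (hw : ∀ x ∈ O, FAt w x) : Eqv d (⟨w, d.tp w⟩ : Sc I M ι' κ) O :=
  ⟨_, (h.tp hw).refl⟩

theorem eqv_iff (h : d.On O) (h' : d'.On O) :
    Eqv d d' O ↔ ∃ s : M → Matrix (l × κ) Unit ℂ, Uni I (fun _ => 1) (d.hl d') s O :=
  ⟨fun ⟨_, i⟩ => ⟨_, CI.col (h.tp h'.fr) h'.m i⟩, fun ⟨_, s⟩ => ⟨_, ci_unc (h.tp h'.fr) h'.m s⟩⟩

theorem tp_pull (h : d.On O) (hw : ∀ x ∈ O, FAt w x) (hf : ∀ y ∈ W, IsLocalDiffeomorphAt I' I ∞ f y)
    (hm : MapsTo f W O) {y : N} (hy : y ∈ W) :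
    ((d.pull I' f).tp fun a => pbv I' I f (w a)).r y = (d.tp w).r (f y) :=
  congrArg (fun R => rot R (d.m.r (f y))) (pol_rel (hf y hy) ((h.fr _ (hm hy)).pbv (hf y hy)).sp
    ((hw _ (hm hy)).pbv (hf y hy)).sp (fun a => pbv_rel (hf y hy) (d.e a))
    fun a => pbv_rel (hf y hy) (w a))

theorem Iw.pull (h : d.On O) (h' : d'.On O) (i : Iw d d' u O)
    (hf : ∀ y ∈ W, IsLocalDiffeomorphAt I' I ∞ f y) (hm : MapsTo f W O) :
    Iw (d.pull I' f) (d'.pull I' f) (fun y => u (f y)) W :=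
  (CI.comp i (fun y hy => (hf y hy).contMDiffAt) hm).of_eq
    (fun _ hy => ⟨rfl, tp_pull h h'.fr hf hm hy⟩) fun _ _ => ⟨rfl, rfl⟩

theorem Eqv.pull (h : d.On O) (h' : d'.On O) (i : Eqv d d' O)
    (hf : ∀ y ∈ W, IsLocalDiffeomorphAt I' I ∞ f y) (hm : MapsTo f W O) :
    Eqv (d.pull I' f) (d'.pull I' f) W := let ⟨_, i⟩ := i; ⟨_, i.pull h h' hf hm⟩

theorem hl_pull (h : d.On O) (h' : d'.On O) (hf : ∀ y ∈ W, IsLocalDiffeomorphAt I' I ∞ f y)
    (hm : MapsTo f W O) {y : N} (hy : y ∈ W) : (d.pull I' f).hl (d'.pull I' f) y = d.hl d' (f y) :=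
  congrArg (fun R => hP R (d'.m.r (f y))) (tp_pull h h'.fr hf hm hy)

theorem det_pull (d : Sc I M ι κ) (f : N → M) (y : N) : (d.pull I' f).det y = d.det (f y) := rfl

theorem tp_bar (d : Sc I M ι κ) (w : ι' → VF I M) : d.bar.tp w = (d.tp w).bar :=
  congrArg (C8.mk _) (funext₂ fun a x => (cj_rot (pol d.e w x) (d.m.r x) a).symm)

theorem tp_tw (d : Sc I M ι κ) (q : M → Matrix n n ℂ) (w : ι' → VF I M) :
    (d.tw q).tp w = (d.tp w).tw q :=
  congrArg (C8.mk _) (funext₂ fun a x => rot_tw (pol d.e w x) (d.m.r x) (q x) a)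

theorem Iw.bar (i : Iw d d' u O) : Iw d.bar d'.bar (fun x => cj (u x)) O := by
  rw [Iw, tp_bar]; exact CI.bar i

theorem Eqv.bar (i : Eqv d d' O) : Eqv d.bar d'.bar O := let ⟨_, i⟩ := i; ⟨_, i.bar⟩

theorem Iw.tw (i : Iw d d' u O) {v : M → Matrix k n ℂ} (hv : Uni I q q' v O) :
    Iw (d.tw q) (d'.tw q') (fun x => u x ⊗ₖ v x) O := by
  rw [Iw, tp_tw]; exact CI.tw i hv

theorem Eqv.tw (i : Eqv d d' O) {v : M → Matrix k n ℂ} (hv : Uni I q q' v O) :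
    Eqv (d.tw q) (d'.tw q') O := let ⟨_, i⟩ := i; ⟨_, i.tw hv⟩

theorem Sc.bar_bar (d : Sc I M ι κ) : d.bar.bar = d := congrArg (Sc.mk d.e) d.m.bar_bar

/-- data that agree on `O` up to literal equality -/
theorem Iw.of_eq {a : Sc I M ι κ} {a' : Sc I M ι' l} (i : Iw d d' u O)
    (e : ∀ x ∈ O, atx a.e x = atx d.e x ∧ a.m.p x = d.m.p x ∧ a.m.r x = d.m.r x)
    (e' : ∀ x ∈ O, atx a'.e x = atx d'.e x ∧ a'.m.p x = d'.m.p x ∧ a'.m.r x = d'.m.r x) :
    Iw a a' u O :=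
  CI.of_eq i (fun x hx => ⟨(e x hx).2.1, by
    show rot (pol a.e a'.e x) (a.m.r x) = rot (pol d.e d'.e x) (d.m.r x)
    rw [pol, pol, fP, fP, fM, fM, (e x hx).1, (e' x hx).1, (e x hx).2.2]⟩) fun x hx => (e' x hx).2

end sc

end Crest.Agent.X212.Lab56
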